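import Vale.Agent.P090.Space

/-!
A uniformly discrete metric space whose Lipschitz-free space fails the bounded
approximation property.
-/

open Vale.Agent.P090

/-- There is a countable uniformly discrete metric space `M` whose Lipschitz-free space
fails the bounded approximation property. -/
theorem Vale.Agent.Results.P090.NoBap.result :
    ∃ (M : Type) (_ : MetricSpace M) (o : M), Countable M ∧
      (∀ x y : M, x ≠ y → 1 ≤ dist x y) ∧ ¬ HasBAP (freeSub M o) :=
  exists_no_bap
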